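import Vale.Agent.P287.H802.Lattice

/-!
Lattice theory of cubic fourfolds containing a plane: labellings of admissible discriminant and
hyperbolic planes in the algebraic Mukai lattice.
-/

namespace Vale.Agent.P287.H802

open LinearMap (BilinForm)

variable {A : Type*} [AddCommGroup A]

/-- The Mukai form of the Kuznetsov component on `ℤ × A`, `A` the lattice of algebraic classes of
a cubic fourfold, `h ∈ A` the square of the hyperplane class. -/
def kuForm (B : BilinForm ℤ A) (h : A) (u v : ℤ × A) : ℤ :=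
  2 * u.1 * v.1 + u.1 * B v.2 h + v.1 * B u.2 h + B u.2 h * B v.2 h - B u.2 v.2

/-- the discriminant of the lattice spanned by `h` and `T` if `h·h = 3` -/
def disc (B : BilinForm ℤ A) (h T : A) : ℤ := 3 * B T T - (B T h) ^ 2

/-- `K` is a labelling of discriminant `d`: a saturated positive definite sublattice of rank two
containing `h`, of determinant `d`. -/
structure IsLabelling (B : BilinForm ℤ A) (h : A) (K : Submodule ℤ A) (d : ℤ) : Prop where
  mem : h ∈ K
  sat : ∀ (n : ℤ) (x : A), n ≠ 0 → n • x ∈ K → x ∈ K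
  pos : ∀ x ∈ K, x ≠ 0 → 0 < B x x
  det : ∃ e : Module.Basis (Fin 2) ℤ K, (Matrix.of fun i j => B (e i) (e j)).det = d

/-- admissible integers -/
def Admissible (d : ℤ) : Prop :=
  6 < d ∧ (d % 6 = 0 ∨ d % 6 = 2) ∧ ¬ 4 ∣ d ∧ ¬ 9 ∣ d ∧
    ∀ p : ℕ, p.Prime → p ≠ 2 → p % 3 = 2 → ¬ (p : ℤ) ∣ d

variable {B : BilinForm ℤ A} {h P : A}

/-- a hyperbolic plane gives a class of discriminant `2` modulo `4` -/
lemma disc_of_hyp (sB : ∀ x y, B x y = B y x)
    (hyp : HypPlane (kuForm B h) (fun _ => True)) : ∃ T, disc B h T % 4 = 2 := by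
  obtain ⟨u, v, -, -, uu, vv, uv⟩ := hyp
  by_contra hcon
  push Not at hcon
  have key : ∀ w : ℤ × A, kuForm B h w w = 0 → Even w.1 ∧ Even (B w.2 h) := by
    intro w hw
    have h1 := hcon w.2
    unfold kuForm at hw
    unfold disc at h1
    by_contra hne
    apply h1
    have e : 3 * B w.2 w.2 - (B w.2 h) ^ 2 =
        2 * (3 * w.1 * w.1 + 3 * w.1 * B w.2 h + B w.2 h * B w.2 h) := by
      linear_combination (-3) * hw
    rw [e]
    have h2 : Odd (3 * w.1 * w.1 + 3 * w.1 * B w.2 h + B w.2 h * B w.2 h) := by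
      rw [← Int.not_even_iff_odd]
      intro h3
      apply hne
      simp only [Int.even_add, Int.even_mul, show ¬ Even (3 : ℤ) by decide, false_or] at h3
      tauto
    obtain ⟨t, ht⟩ := h2
    rw [ht]
    omega
  obtain ⟨u1, u2⟩ := key u uu
  obtain ⟨v1, v2⟩ := key v vv
  apply hcon (u.2 + v.2)
  obtain ⟨a, ha⟩ := u1.add v1
  obtain ⟨b, hb⟩ := u2.add v2
  have e : disc B h (u.2 + v.2) = 4 * (6 * a * a + 6 * a * b + 2 * b * b) - 6 := by
    unfold disc
    unfold kuForm at uu vv uv
    simp only [map_add, LinearMap.add_apply]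
    rw [sB v.2 u.2]
    have e2 : 3 * (B u.2 u.2 + B u.2 v.2 + (B u.2 v.2 + B v.2 v.2)) -
        (B u.2 h + B v.2 h) ^ 2 = 6 * (u.1 + v.1) * (u.1 + v.1) +
          6 * (u.1 + v.1) * (B u.2 h + B v.2 h) +
          2 * (B u.2 h + B v.2 h) * (B u.2 h + B v.2 h) - 6 := by
      linear_combination (-3) * uu - 3 * vv - 6 * uv
    rw [e2, ha, hb]
    ring
  rw [e]
  omega

/-- an isotropic vector with coprime products with the standard vectors gives a hyperbolic plane -/
lemma hyp_of_iso (sB : ∀ x y, B x y = B y x) (h3 : B h h = 3) {y : ℤ} {T : A}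
    (hc : IsCoprime y (B T h)) (hT : B T T = 2 * y * y + 2 * y * B T h + B T h * B T h) :
    HypPlane (kuForm B h) (fun _ => True) := by
  obtain ⟨s, t, hst⟩ := hc
  set x : ℤ := 2 * t - s with hx
  set c : ℤ := x * x - x * t + t * t with hc
  refine ⟨(y, T), (-2 * x + t - c * y, x • h - c • T), trivial, trivial, ?_, ?_, ?_⟩
  · unfold kuForm
    simp only
    linear_combination -hT
  · unfold kuForm
    simp only [map_sub, map_smul, LinearMap.sub_apply, LinearMap.smul_apply, smul_eq_mul, h3,
      sB h T, hT]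
    have hs : s = 2 * t - x := by rw [hx]; ring
    rw [hs] at hst
    rw [hc]
    linear_combination (-2 * (x * x - x * t + t * t)) * hst
  · unfold kuForm
    simp only [map_sub, map_smul, LinearMap.sub_apply, LinearMap.smul_apply, smul_eq_mul, h3, hT]
    have hs : s = 2 * t - x := by rw [hx]; ring
    rw [hs] at hst
    linear_combination hst

/-- an element `T` with `y`, isotropic and with coprime `y`, `T·h` -/
def GoodClass (B : BilinForm ℤ A) (h : A) : Prop :=
  ∃ (y : ℤ) (T : A), IsCoprime y (B T h) ∧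
    B T T = 2 * y * y + 2 * y * B T h + B T h * B T h

/-- the quadric surface class `h - P` meets some class oddly -/
lemma good_of_odd (sB : ∀ x y, B x y = B y x) (ch : ∀ x, Even (B x x - B x h)) (h3 : B h h = 3)
    (hP : B P P = 3) (hPh : B P h = 1) {T : A} (hT : Odd (B T h - B T P)) :
    GoodClass B h := by
  -- adjust by multiples of `h`
  obtain ⟨α, ε, hε, hα⟩ : ∃ α ε : ℤ, (ε = 1 ∨ ε = -1) ∧
      2 + (2 * B T h - (B T h - B T P)) + 4 * α = ε := by
    obtain ⟨t, ht⟩ := hT
    rcases Int.emod_two_eq_zero_or_one (B T h - t) with h1 | h1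
    · exact ⟨-((2 + (2 * B T h - (B T h - B T P)) - 1) / 4), 1, Or.inl rfl, by omega⟩
    · exact ⟨-((2 + (2 * B T h - (B T h - B T P)) + 1) / 4), -1, Or.inr rfl, by omega⟩
  set S : A := T + α • h with hS
  have s1 : B S h = B T h + 3 * α := by
    rw [hS]; simp only [map_add, map_smul, LinearMap.add_apply, LinearMap.smul_apply, smul_eq_mul,
      h3]; ring
  have s2 : B S P = B T P + α := by
    rw [hS]; simp only [map_add, map_smul, LinearMap.add_apply, LinearMap.smul_apply, smul_eq_mul,
      sB h P, hPh]; ring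
  have s3 : 2 + 2 * B S h - (B S h - B S P) = ε := by rw [s1, s2]; linear_combination hα
  obtain ⟨q, hq⟩ : ∃ q, 2 + 2 * B S h + B S h * B S h - B S S = 2 * q := by
    obtain ⟨c, hc⟩ := ch S
    obtain ⟨c', hc'⟩ := Int.even_mul_succ_self (B S h)
    exact ⟨1 + c' - c, by linear_combination hc' - hc⟩
  have hε2 : ε * ε = 1 := by rcases hε with h1 | h1 <;> rw [h1] <;> norm_num
  refine ⟨1, S - (ε * q) • (h - P), isCoprime_one_left, ?_⟩
  simp only [map_sub, map_smul, LinearMap.sub_apply, LinearMap.smul_apply, smul_eq_mul, h3, hP,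
    hPh, sB h S, sB P S, sB h P]
  have s4 : B S P = ε - 2 - B S h := by linear_combination s3
  rw [s4]
  have s5 : B S S = 2 + 2 * B S h + B S h * B S h - 2 * q := by linear_combination -hq
  rw [s5]
  linear_combination (2 * q) * hε2

/-- change of the discriminant under `T ↦ T + α h` -/
lemma disc_add_h (sB : ∀ x y, B x y = B y x) (h3 : B h h = 3) (T : A) (α : ℤ) :
    disc B h (T + α • h) = disc B h T := by
  unfold disc
  simp only [map_add, map_smul, LinearMap.add_apply, LinearMap.smul_apply, smul_eq_mul, h3,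
    sB h T]
  ring

/-- the case of `T` with `2 (T·h) - Q·T = 0`, `Q = h - P` -/
lemma good_zero (sB : ∀ x y, B x y = B y x) (h3 : B h h = 3)
    (hP : B P P = 3) (hPh : B P h = 1) {T : A} (hd : disc B h T % 4 = 2)
    (hδ : 2 * B T h - (B T h - B T P) = 0) : GoodClass B h := by
  unfold disc at hd
  obtain ⟨q, hq⟩ : ∃ q, 2 + 2 * B T h + B T h * B T h - B T T = 4 * q := by
    rcases Int.even_or_odd' (B T h) with ⟨k, hk | hk⟩
    · rw [hk] at hd ⊢
      refine ⟨(2 + 2 * (2 * k) + (2 * k) * (2 * k) - B T T) / 4, ?_⟩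
      have e1 : (2 * k) ^ 2 = 4 * (k * k) := by ring
      have e2 : (2 * k) * (2 * k) = 4 * (k * k) := by ring
      rw [e1] at hd
      rw [e2]
      omega
    · rw [hk] at hd ⊢
      refine ⟨(2 + 2 * (2 * k + 1) + (2 * k + 1) * (2 * k + 1) - B T T) / 4, ?_⟩
      have e1 : (2 * k + 1) ^ 2 = 4 * (k * k + k) + 1 := by ring
      have e2 : (2 * k + 1) * (2 * k + 1) = 4 * (k * k + k) + 1 := by ring
      rw [e1] at hd
      rw [e2]
      omega
  refine ⟨1, T - q • (h - P), isCoprime_one_left, ?_⟩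
  simp only [map_sub, map_smul, LinearMap.sub_apply, LinearMap.smul_apply, smul_eq_mul, h3, hP,
    hPh, sB h T, sB P T, sB h P]
  have s4 : B T P = - B T h := by linear_combination hδ
  rw [s4]
  have s5 : B T T = 2 + 2 * B T h + B T h * B T h - 4 * q := by linear_combination -hq
  rw [s5]
  ring

/-- the case of `T` with `T·h` odd and `2 (T·h) - Q·T = 2 ε`, `ε = ±1` -/
lemma good_two (sB : ∀ x y, B x y = B y x) (h3 : B h h = 3)
    (hP : B P P = 3) (hPh : B P h = 1) {T : A} (hd : disc B h T % 4 = 2) (hodd : Odd (B T h))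
    {ε : ℤ} (hε : ε * ε = 1) (hδ : 2 * B T h - (B T h - B T P) = 2 * ε) : GoodClass B h := by
  unfold disc at hd
  obtain ⟨q, hq⟩ : ∃ q, 8 - 4 * ε * B T h + B T h * B T h - B T T = 4 * q := by
    obtain ⟨k, hk⟩ := hodd
    rw [hk] at hd ⊢
    refine ⟨(8 - 4 * ε * (2 * k + 1) + (2 * k + 1) * (2 * k + 1) - B T T) / 4, ?_⟩
    have e1 : (2 * k + 1) ^ 2 = 4 * (k * k + k) + 1 := by ring
    have e2 : (2 * k + 1) * (2 * k + 1) = 4 * (k * k + k) + 1 := by ring
    have e3 : 4 * ε * (2 * k + 1) = 4 * (ε * (2 * k + 1)) := by ring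
    rw [e1] at hd
    rw [e2, e3]
    omega
  refine ⟨-2 * ε, T + (ε * q) • (h - P), ?_, ?_⟩
  · simp only [map_add, map_sub, map_smul, LinearMap.add_apply, LinearMap.sub_apply,
      LinearMap.smul_apply, smul_eq_mul, h3, hPh]
    obtain ⟨k, hk⟩ := hodd
    rw [hk]
    refine ⟨(k + ε * q) * ε, 1, ?_⟩
    linear_combination (-2 * (k + ε * q)) * hε
  · simp only [map_add, map_sub, map_smul, LinearMap.add_apply, LinearMap.sub_apply,
      LinearMap.smul_apply, smul_eq_mul, h3, hP, hPh, sB h T, sB P T, sB h P]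
    have s4 : B T P = 2 * ε - B T h := by linear_combination hδ
    rw [s4]
    have s5 : B T T = 8 - 4 * ε * B T h + B T h * B T h - 4 * q := by linear_combination -hq
    rw [s5]
    ring_nf
    have e2 : ε ^ 2 = 1 := by rw [sq]; exact hε
    rw [e2]
    ring

/-- From a class of discriminant `2` modulo `4` to an isotropic vector with coprime products. -/
theorem good_of_disc (sB : ∀ x y, B x y = B y x) (ch : ∀ x, Even (B x x - B x h))
    (h3 : B h h = 3) (hP : B P P = 3) (hPh : B P h = 1) {T : A} (hd : disc B h T % 4 = 2) :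
    GoodClass B h := by
  by_cases hall : ∃ S, Odd (B S h - B S P)
  · obtain ⟨S, hS⟩ := hall
    exact good_of_odd sB ch h3 hP hPh hS
  push Not at hall
  have hall' : ∀ S, Even (B S h - B S P) := fun S => by
    rw [← Int.not_odd_iff_even]; exact hall S
  obtain ⟨g, hg⟩ := hall' T
  have hmul : ∀ (S : A) (α : ℤ), 2 * B (S + α • h) h - (B (S + α • h) h - B (S + α • h) P) =
      2 * B S h - (B S h - B S P) + 4 * α := by
    intro S α
    simp only [map_add, map_smul, LinearMap.add_apply, LinearMap.smul_apply, smul_eq_mul, h3,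
      sB h P, hPh]
    ring
  rcases Int.even_or_odd (B T h - g) with h1 | h1
  · -- `δ = 0` modulo 4
    obtain ⟨j, hj⟩ := h1
    refine good_zero sB h3 hP hPh (T := T + (-j) • h) ?_ ?_
    · rw [disc_add_h sB h3]; exact hd
    · rw [hmul]; omega
  · -- `δ = 2` modulo 4; first make `T·h` odd
    have key : ∀ S : A, disc B h S % 4 = 2 → Odd (B S h) →
        (2 * B S h - (B S h - B S P)) % 4 = 2 → GoodClass B h := by
      intro S h2 h4 h5
      obtain ⟨α, ε, hε, hα⟩ : ∃ α ε : ℤ, ε * ε = 1 ∧
          2 * B S h - (B S h - B S P) + 4 * (2 * α) = 2 * ε := by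
        rcases Int.emod_two_eq_zero_or_one ((2 * B S h - (B S h - B S P)) / 4) with h6 | h6
        · exact ⟨-((2 * B S h - (B S h - B S P)) / 8), 1, by norm_num, by omega⟩
        · exact ⟨-((2 * B S h - (B S h - B S P)) / 8 + 1), -1, by norm_num, by omega⟩
      refine good_two sB h3 hP hPh (T := S + (2 * α) • h) ?_ ?_ hε ?_
      · rw [disc_add_h sB h3]; exact h2
      · simp only [map_add, map_smul, LinearMap.add_apply, LinearMap.smul_apply, smul_eq_mul, h3]
        exact h4.add_even ⟨α * 3, by ring⟩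
      · rw [hmul]; exact hα
    rcases Int.even_or_odd (B T h) with h2 | h2
    · refine key (T + P) ?_ ?_ ?_
      · unfold disc at hd ⊢
        simp only [map_add, LinearMap.add_apply]
        rw [hP, hPh, sB P T]
        have e : 3 * (B T T + B T P + (B T P + 3)) - (B T h + 1) ^ 2 =
            3 * B T T - (B T h) ^ 2 + 6 * B T P + 8 - 2 * B T h := by ring
        rw [e]
        obtain ⟨k, hk⟩ := h2
        omega
      · simp only [map_add, LinearMap.add_apply, hPh]
        exact h2.add_one
      · simp only [map_add, LinearMap.add_apply, hPh, hP]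
        obtain ⟨j, hj⟩ := h1
        omega
    · refine key T hd h2 ?_
      obtain ⟨j, hj⟩ := h1
      omega

end Vale.Agent.P287.H802
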