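import Vale.Agent.P287.H802.Cubic

/-!
From an isotropic vector of the Mukai form to a labelling of admissible discriminant.
-/

namespace Vale.Agent.P287.H802

open LinearMap (BilinForm)

/-- cubing is injective modulo a prime `p` congruent to `2` modulo `3` -/
lemma cube_inj {p : ℕ} [Fact p.Prime] (hp : p % 3 = 2) {a b : ZMod p} (h : a ^ 3 = b ^ 3) :
    a = b := by
  have key : ∀ c : ZMod p, (c ^ 3) ^ ((2 * p - 1) / 3) = c := by
    intro c
    rw [← pow_mul, show 3 * ((2 * p - 1) / 3) = p + (p - 1) by omega, pow_add, ZMod.pow_card]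
    rw [← pow_succ', show p - 1 + 1 = p by omega, ZMod.pow_card]
  rw [← key a, ← key b, h]

/-- the prime factors of `3y² + 3yk + k²` with `y, k` coprime -/
lemma not_dvd_norm {y k : ℤ} (hc : IsCoprime y k) {p : ℕ} (pp : p.Prime) (hp : p % 3 = 2) :
    ¬ (p : ℤ) ∣ 3 * y * y + 3 * y * k + k * k := by
  intro hd
  have : Fact p.Prime := ⟨pp⟩
  have e1 : (3 * y * y + 3 * y * k + k * k : ZMod p) = 0 := by
    have := (ZMod.intCast_zmod_eq_zero_iff_dvd (3 * y * y + 3 * y * k + k * k) p).2 hd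
    push_cast at this
    exact this
  have e2 : ((k : ZMod p) + y) ^ 3 = (y : ZMod p) ^ 3 := by
    linear_combination (k : ZMod p) * e1
  have e3 : (k : ZMod p) = 0 := by
    have := cube_inj hp e2
    linear_combination this
  have e4 : (p : ℤ) ∣ k := (ZMod.intCast_zmod_eq_zero_iff_dvd k p).1 e3
  have e5 : (3 : ZMod p) * (y : ZMod p) ^ 2 = 0 := by
    rw [e3] at e1
    linear_combination e1
  have e6 : (3 : ZMod p) ≠ 0 := by
    intro h3
    have h4 : ((3 : ℤ) : ZMod p) = 0 := by exact_mod_cast h3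
    have h5 := (ZMod.intCast_zmod_eq_zero_iff_dvd 3 p).1 h4
    have h6 : p ∣ 3 := by exact_mod_cast h5
    have h7 := (Nat.prime_dvd_prime_iff_eq pp Nat.prime_three).1 h6
    omega
  have e7 : (y : ZMod p) = 0 := by
    rcases mul_eq_zero.1 e5 with h8 | h8
    · exact absurd h8 e6
    · exact pow_eq_zero_iff (by norm_num) |>.1 h8
  have e8 : (p : ℤ) ∣ y := (ZMod.intCast_zmod_eq_zero_iff_dvd y p).1 e7
  have e9 := hc.isUnit_of_dvd' e8 e4
  rw [Int.isUnit_iff_natAbs_eq] at e9
  simp only [Int.natAbs_natCast] at e9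
  exact pp.one_lt.ne' e9

lemma norm_odd {y k : ℤ} (hc : IsCoprime y k) : Odd (3 * y * y + 3 * y * k + k * k) := by
  rw [← Int.not_even_iff_odd]
  intro h
  rw [even_iff_two_dvd] at h
  exact not_dvd_norm hc Nat.prime_two rfl (by exact_mod_cast h)

lemma norm_nine {y k : ℤ} (hc : IsCoprime y k) : ¬ (9 : ℤ) ∣ 3 * y * y + 3 * y * k + k * k := by
  intro h
  have h3 : (3 : ℤ) ∣ k := by
    have : (3 : ℤ) ∣ k * k := by
      have h1 : (3 : ℤ) ∣ 3 * y * y + 3 * y * k + k * k := dvd_trans (by norm_num) h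
      have h2 : k * k = (3 * y * y + 3 * y * k + k * k) - 3 * (y * y + y * k) := by ring
      rw [h2]
      exact dvd_sub h1 (dvd_mul_right _ _)
    rcases Int.prime_three.dvd_or_dvd this with h4 | h4 <;> exact h4
  have h5 : (3 : ℤ) ∣ y := by
    obtain ⟨c, hc⟩ := h3
    obtain ⟨t, ht⟩ := h
    have : (3 : ℤ) ∣ y * y := ⟨t - y * c - c * c, by rw [hc] at ht; linarith⟩
    rcases Int.prime_three.dvd_or_dvd this with h4 | h4 <;> exact h4
  have h6 := hc.isUnit_of_dvd' h5 h3
  rw [Int.isUnit_iff_natAbs_eq] at h6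
  norm_num at h6

lemma norm_mod_three (y k : ℤ) : (3 * y * y + 3 * y * k + k * k) % 3 = 0 ∨
    (3 * y * y + 3 * y * k + k * k) % 3 = 1 := by
  have h1 : (3 * y * y + 3 * y * k + k * k) % 3 = (k * k) % 3 := by
    have : 3 * y * y + 3 * y * k + k * k = k * k + 3 * (y * y + y * k) := by ring
    rw [this]
    omega
  rw [h1, Int.mul_emod]
  have h2 : k % 3 = 0 ∨ k % 3 = 1 ∨ k % 3 = 2 := by omega
  rcases h2 with h2 | h2 | h2 <;> rw [h2] <;> norm_num

/-- if `m² d = 2 n`, `n` as above, then `d` is admissible as soon as it is not `2` or `6` -/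
lemma admissible_of_eq {y k m d : ℤ} (hc : IsCoprime y k)
    (he : m * m * d = 2 * (3 * y * y + 3 * y * k + k * k)) (hd : 0 < d) (h2 : d ≠ 2)
    (h6 : d ≠ 6) : Admissible d ∧ d % 4 = 2 := by
  set n : ℤ := 3 * y * y + 3 * y * k + k * k with hn
  have nodd : Odd n := norm_odd hc
  have n9 : ¬ (9 : ℤ) ∣ n := norm_nine hc
  have n3 := norm_mod_three y k
  rw [← hn] at n3
  have modd : Odd m := by
    rw [← Int.not_even_iff_odd]
    rintro ⟨c, hc'⟩
    rw [hc'] at he
    obtain ⟨t, ht⟩ := nodd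
    have : 2 * n = 4 * (c * c * d) := by rw [← he]; ring
    omega
  have m3 : ¬ (3 : ℤ) ∣ m := by
    rintro ⟨c, hc'⟩
    apply n9
    rw [hc'] at he
    have h9 : 2 * n = 9 * (c * c * d) := by rw [← he]; ring
    omega
  have mm4 : ∃ t, m * m = 4 * t + 1 := by
    obtain ⟨c, hc'⟩ := modd
    exact ⟨c * c + c, by rw [hc']; ring⟩
  have mm3 : ∃ t, m * m = 3 * t + 1 := by
    have h1 : m % 3 = 1 ∨ m % 3 = 2 := by omega
    rcases h1 with h1 | h1
    · exact ⟨3 * (m / 3) * (m / 3) + 2 * (m / 3), by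
        have : m = 3 * (m / 3) + 1 := by omega
        generalize m / 3 = q at this
        rw [this]; ring⟩
    · exact ⟨3 * (m / 3) * (m / 3) + 4 * (m / 3) + 1, by
        have : m = 3 * (m / 3) + 2 := by omega
        generalize m / 3 = q at this
        rw [this]; ring⟩
  obtain ⟨t4, ht4⟩ := mm4
  obtain ⟨t3, ht3⟩ := mm3
  have d4 : d % 4 = 2 := by
    rw [ht4] at he
    have : (4 * t4 + 1) * d = 4 * (t4 * d) + d := by ring
    rw [this] at he
    obtain ⟨t, ht⟩ := nodd
    omega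
  have d3 : d % 3 = 0 ∨ d % 3 = 2 := by
    rw [ht3] at he
    have : (3 * t3 + 1) * d = 3 * (t3 * d) + d := by ring
    rw [this] at he
    omega
  refine ⟨⟨?_, ?_, ?_, ?_, ?_⟩, d4⟩
  · omega
  · omega
  · omega
  · rintro ⟨c, hc'⟩
    apply n9
    rw [hc'] at he
    have h9 : 2 * n = 9 * (m * m * c) := by rw [← he]; ring
    omega
  · intro p pp p2 p3 hdvd
    apply not_dvd_norm hc pp p3
    rw [← hn]
    have h1 : (p : ℤ) ∣ 2 * n := by
      rw [← he]
      exact dvd_mul_of_dvd_right hdvd _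
    have h2' : Prime (p : ℤ) := Nat.prime_iff_prime_int.1 pp
    rcases h2'.dvd_or_dvd h1 with h3 | h3
    · exfalso
      have h4 : p ∣ 2 := by exact_mod_cast h3
      exact p2 ((Nat.prime_dvd_prime_iff_eq pp Nat.prime_two).1 h4)
    · exact h3

variable {A : Type*} [AddCommGroup A] {B : BilinForm ℤ A} {h : A}

/-- the saturation of the span of two elements -/
def satSpan (h T : A) : Submodule ℤ A where
  carrier := {x | ∃ n : ℤ, n ≠ 0 ∧ ∃ a b : ℤ, n • x = a • h + b • T}
  zero_mem' := ⟨1, one_ne_zero, 0, 0, by simp⟩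
  add_mem' := by
    rintro x x' ⟨n, hn, a, b, hx⟩ ⟨n', hn', a', b', hx'⟩
    refine ⟨n * n', mul_ne_zero hn hn', n' * a + n * a', n' * b + n * b', ?_⟩
    have e : (n * n') • (x + x') = n' • (n • x) + n • (n' • x') := by
      rw [smul_add, mul_smul, mul_smul, smul_comm n n' x]
    rw [e, hx, hx']
    module
  smul_mem' := by
    rintro c x ⟨n, hn, a, b, hx⟩
    refine ⟨n, hn, c * a, c * b, ?_⟩
    rw [smul_comm, hx]
    module

lemma mem_satSpan {h T x : A} : x ∈ satSpan h T ↔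
    ∃ n : ℤ, n ≠ 0 ∧ ∃ a b : ℤ, n • x = a • h + b • T := Iff.rfl

lemma left_mem_satSpan (h T : A) : h ∈ satSpan h T := ⟨1, one_ne_zero, 1, 0, by simp⟩

lemma right_mem_satSpan (h T : A) : T ∈ satSpan h T := ⟨1, one_ne_zero, 0, 1, by simp⟩

lemma sat_satSpan (h T : A) (n : ℤ) (x : A) (hn : n ≠ 0) (hx : n • x ∈ satSpan h T) :
    x ∈ satSpan h T := by
  obtain ⟨m, hm, a, b, e⟩ := hx
  exact ⟨m * n, mul_ne_zero hm hn, a, b, by rw [mul_smul, e]⟩

/-- the map `x ↦ (x·h, x·T)` on the saturation -/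
def pairMap (B : BilinForm ℤ A) (h T : A) : satSpan h T →ₗ[ℤ] ℤ × ℤ :=
  ((B.flip h).prod (B.flip T)).comp (satSpan h T).subtype

lemma pairMap_apply (B : BilinForm ℤ A) (h T : A) (x : satSpan h T) :
    pairMap B h T x = (B x h, B x T) := rfl

lemma pairMap_injective (pos : ∀ x : A, x ≠ 0 → 0 < B x x) (h T : A) :
    Function.Injective (pairMap B h T) := by
  rw [← LinearMap.ker_eq_bot, LinearMap.ker_eq_bot']
  rintro ⟨x, hx⟩ h0
  rw [pairMap_apply] at h0
  obtain ⟨h1, h2⟩ := Prod.mk.inj h0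
  simp only at h1 h2
  obtain ⟨n, hn, a, b, e⟩ := hx
  have h3 : n * B x x = 0 := by
    have : B x (n • x) = a * B x h + b * B x T := by
      rw [e]; simp only [map_add, map_smul, smul_eq_mul]
    rw [map_smul, smul_eq_mul, h1, h2] at this
    linarith
  have h4 : B x x = 0 := by
    rcases mul_eq_zero.1 h3 with h5 | h5
    · exact absurd h5 hn
    · exact h5
  have h5 : x = 0 := by
    by_contra hne
    exact (pos x hne).ne' h4
  simp [h5]

/-- the map `(a, b) ↦ a h + b T` into the saturation -/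
def combMap (h T : A) : ℤ × ℤ →ₗ[ℤ] satSpan h T :=
  (LinearMap.toSpanSingleton ℤ _ ⟨h, left_mem_satSpan h T⟩).coprod
    (LinearMap.toSpanSingleton ℤ _ ⟨T, right_mem_satSpan h T⟩)

lemma combMap_apply (h T : A) (a b : ℤ) : (combMap h T (a, b) : A) = a • h + b • T := rfl

lemma combMap_injective (sB : ∀ x y, B x y = B y x) (h3 : B h h = 3) {T : A}
    (hd : disc B h T ≠ 0) : Function.Injective (combMap h T) := by
  rw [← LinearMap.ker_eq_bot, LinearMap.ker_eq_bot']
  rintro ⟨a, b⟩ h0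
  have h1 : a • h + b • T = 0 := by
    rw [← combMap_apply, h0]; rfl
  have h2 : a * 3 + b * B h T = 0 := by
    have := congrArg (B h) h1
    simpa only [map_add, map_smul, smul_eq_mul, h3, map_zero] using this
  have h4 : a * B T h + b * B T T = 0 := by
    have := congrArg (B T) h1
    simpa only [map_add, map_smul, smul_eq_mul, map_zero] using this
  rw [sB h T] at h2
  have h5 : b * disc B h T = 0 := by
    unfold disc
    linear_combination 3 * h4 - B T h * h2
  have h6 : b = 0 := by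
    rcases mul_eq_zero.1 h5 with h7 | h7
    · exact h7
    · exact absurd h7 hd
  rw [h6] at h2
  have h7 : a = 0 := by linarith
  rw [h6, h7]; rfl

lemma finrank_satSpan [Module.Free ℤ A] [Module.Finite ℤ A] (sB : ∀ x y, B x y = B y x)
    (pos : ∀ x : A, x ≠ 0 → 0 < B x x) (h3 : B h h = 3) {T : A}
    (hd : disc B h T ≠ 0) : Module.finrank ℤ (satSpan h T) = 2 := by
  apply le_antisymm
  · have := LinearMap.finrank_le_finrank_of_injective (pairMap_injective pos h T)
    simpa using this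
  · have := LinearMap.finrank_le_finrank_of_injective (combMap_injective sB h3 hd)
    simpa using this

/-- positivity of the determinant of a rank two lattice -/
lemma det_pos {K : Submodule ℤ A} (sB : ∀ x y, B x y = B y x)
    (pos : ∀ x : A, x ≠ 0 → 0 < B x x) (e : Module.Basis (Fin 2) ℤ K) :
    0 < (Matrix.of fun i j => B (e i) (e j)).det := by
  rw [Matrix.det_fin_two]
  simp only [Matrix.of_apply]
  have h0 : (e 0 : A) ≠ 0 := by
    intro hz
    exact e.ne_zero 0 (Subtype.ext hz)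
  have p0 := pos _ h0
  set w : K := B (e 0) (e 0) • e 1 - B (e 0) (e 1) • e 0 with hw
  have hw0 : w ≠ 0 := by
    intro hz
    have h1 := congrArg (fun t => e.repr t 1) hz
    simp only [hw, map_sub, map_smul, Finsupp.sub_apply, Finsupp.smul_apply, smul_eq_mul,
      Module.Basis.repr_self, map_zero, Finsupp.coe_zero, Pi.zero_apply] at h1
    rw [Finsupp.single_eq_same, Finsupp.single_eq_of_ne (by decide)] at h1
    simp only [mul_one, mul_zero, sub_zero] at h1
    exact p0.ne' h1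
  have hw1 : (w : A) ≠ 0 := fun hz => hw0 (Subtype.ext hz)
  have p1 := pos _ hw1
  have e1 : B (w : A) (w : A) = B (e 0) (e 0) *
      (B (e 0) (e 0) * B (e 1) (e 1) - B (e 0) (e 1) * B (e 1) (e 0)) := by
    rw [hw]
    simp only [Submodule.coe_sub, Submodule.coe_smul, map_sub, map_smul, LinearMap.sub_apply,
      LinearMap.smul_apply, smul_eq_mul]
    rw [sB (e 1 : A) (e 0 : A)]
    ring
  rw [e1] at p1
  exact (mul_pos_iff_of_pos_left p0).1 p1

/-- the Gram determinant of two combinations -/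
lemma gram_comb (sB : ∀ x y, B x y = B y x) (u v x y : A) (a0 a1 b0 b1 : ℤ)
    (hx : x = a0 • u + a1 • v) (hy : y = b0 • u + b1 • v) :
    B x x * B y y - B y x * B y x =
      (a0 * b1 - a1 * b0) * (a0 * b1 - a1 * b0) * (B u u * B v v - B u v * B u v) := by
  rw [hx, hy]
  simp only [map_add, map_smul, LinearMap.add_apply, LinearMap.smul_apply, smul_eq_mul]
  rw [sB v u]
  ring

/-- an isotropic vector with coprime products gives a labelling of admissible discriminant -/
theorem labelling_of_good [Module.Free ℤ A] [Module.Finite ℤ A] (sB : ∀ x y, B x y = B y x)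
    (pos : ∀ x : A, x ≠ 0 → 0 < B x x) (h3 : B h h = 3)
    (hsm : ∀ K d, IsLabelling B h K d → d ≠ 2 ∧ d ≠ 6) (hg : GoodClass B h) :
    ∃ K d, IsLabelling B h K d ∧ Admissible d ∧ d % 4 = 2 := by
  obtain ⟨y, T, hc, hT⟩ := hg
  have dT : disc B h T = 2 * (3 * y * y + 3 * y * B T h + B T h * B T h) := by
    unfold disc
    rw [hT]
    ring
  have dT0 : disc B h T ≠ 0 := by
    obtain ⟨t, ht⟩ := norm_odd hc
    rw [dT, ht]
    omega
  have fr := finrank_satSpan sB pos h3 dT0
  have e : Module.Basis (Fin 2) ℤ (satSpan h T) := Module.finBasisOfFinrankEq ℤ _ fr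
  set d : ℤ := (Matrix.of fun i j => B (e i) (e j)).det with hd
  have lab : IsLabelling B h (satSpan h T) d :=
    ⟨left_mem_satSpan h T, sat_satSpan h T, fun x _ hx => pos x hx, e, rfl⟩
  obtain ⟨d2, d6⟩ := hsm _ _ lab
  -- coordinates
  set hh : satSpan h T := ⟨h, left_mem_satSpan h T⟩ with hhh
  set TT : satSpan h T := ⟨T, right_mem_satSpan h T⟩ with hTT
  have c1 : h = e.repr hh 0 • (e 0 : A) + e.repr hh 1 • (e 1 : A) := by
    have := congrArg (Subtype.val) (e.sum_repr hh)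
    rw [Fin.sum_univ_two] at this
    simpa using this.symm
  have c2 : T = e.repr TT 0 • (e 0 : A) + e.repr TT 1 • (e 1 : A) := by
    have := congrArg (Subtype.val) (e.sum_repr TT)
    rw [Fin.sum_univ_two] at this
    simpa using this.symm
  have dd : d = B (e 0) (e 0) * B (e 1) (e 1) - B (e 0) (e 1) * B (e 0) (e 1) := by
    rw [hd, Matrix.det_fin_two]
    simp only [Matrix.of_apply]
    rw [sB (e 1 : A) (e 0 : A)]
  have dm : disc B h T = (e.repr hh 0 * e.repr TT 1 - e.repr hh 1 * e.repr TT 0) *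
      (e.repr hh 0 * e.repr TT 1 - e.repr hh 1 * e.repr TT 0) * d := by
    have e1 : disc B h T = B h h * B T T - B T h * B T h := by
      unfold disc; rw [h3]; ring
    rw [e1, dd]
    exact gram_comb sB _ _ _ _ _ _ _ _ c1 c2
  obtain ⟨h1, h2⟩ := admissible_of_eq hc (dm.symm.trans dT) (hd ▸ det_pos sB pos e) d2 d6
  exact ⟨_, _, lab, h1, h2⟩

/-- a labelling of discriminant `d` gives an element of discriminant `d` -/
lemma disc_of_labelling (sB : ∀ x y, B x y = B y x) (h3 : B h h = 3) {K : Submodule ℤ A} {d : ℤ}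
    (lab : IsLabelling B h K d) : ∃ T ∈ K, disc B h T = d := by
  obtain ⟨e, hd⟩ := lab.det
  set hh : K := ⟨h, lab.mem⟩ with hhh
  have c1 : h = e.repr hh 0 • (e 0 : A) + e.repr hh 1 • (e 1 : A) := by
    have := congrArg (Subtype.val) (e.sum_repr hh)
    rw [Fin.sum_univ_two] at this
    simpa using this.symm
  generalize e.repr hh 0 = a at c1
  generalize e.repr hh 1 = b at c1
  have cop : IsCoprime a b := by
    rw [Int.isCoprime_iff_gcd_eq_one]
    have h1 : ((Int.gcd a b : ℕ) : ℤ) ∣ a := Int.gcd_dvd_left _ _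
    have h2 : ((Int.gcd a b : ℕ) : ℤ) ∣ b := Int.gcd_dvd_right _ _
    obtain ⟨a', ha⟩ := h1
    obtain ⟨b', hb⟩ := h2
    set g := Int.gcd a b with hg
    have h4 : (g : ℤ) * g ∣ 3 := by
      rw [← h3, c1, ha, hb]
      refine ⟨B (a' • (e 0 : A) + b' • (e 1 : A)) (a' • (e 0 : A) + b' • (e 1 : A)), ?_⟩
      simp only [map_add, map_smul, LinearMap.add_apply, LinearMap.smul_apply, smul_eq_mul]
      ring
    have h5 : g * g ∣ 3 := by exact_mod_cast h4
    have h6 := Nat.le_of_dvd (by norm_num) h5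
    have h7 : g ≤ 1 := by nlinarith
    interval_cases g
    · simp at h5
    · rfl
  obtain ⟨x, y, hxy⟩ := cop
  refine ⟨x • (e 1 : A) - y • (e 0 : A), ?_, ?_⟩
  · exact K.sub_mem (K.smul_mem _ (e 1).2) (K.smul_mem _ (e 0).2)
  · have e1 : ∀ T, disc B h T = B h h * B T T - B T h * B T h := by
      intro T; unfold disc; rw [h3]; ring
    rw [e1, ← hd, Matrix.det_fin_two]
    simp only [Matrix.of_apply]
    rw [c1]
    simp only [map_add, map_sub, map_smul, LinearMap.add_apply, LinearMap.sub_apply,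
      LinearMap.smul_apply, smul_eq_mul]
    rw [sB (e 1 : A) (e 0 : A)]
    have h8 : (x * a + y * b) ^ 2 = 1 := by rw [hxy]; norm_num
    linear_combination (B (e 0) (e 0) * B (e 1) (e 1) - B (e 0) (e 1) * B (e 0) (e 1)) * h8

/-- a labelling of discriminant `8` contains a class `P` with `P² = 3`, `P·h = 1` -/
lemma plane_of_labelling (sB : ∀ x y, B x y = B y x) (h3 : B h h = 3) {K : Submodule ℤ A}
    (lab : IsLabelling B h K 8) : ∃ P ∈ K, B P P = 3 ∧ B P h = 1 := by
  obtain ⟨T, hT, hd⟩ := disc_of_labelling sB h3 lab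
  unfold disc at hd
  have e : ∃ ε α : ℤ, ε * ε = 1 ∧ ε * B T h + 3 * α = 1 := by
    have h1 : (B T h) ^ 2 = 3 * (B T T - 3) + 1 := by linear_combination -hd
    have h2 : B T h % 3 = 1 ∨ B T h % 3 = 2 := by
      have h4 : B T h % 3 ≠ 0 := by
        intro h5
        obtain ⟨c, hc⟩ := Int.dvd_of_emod_eq_zero h5
        rw [hc] at h1
        have : (3 * c) ^ 2 = 3 * (3 * c * c) := by ring
        omega
      omega
    rcases h2 with h2 | h2
    · exact ⟨1, -(B T h / 3), by norm_num, by omega⟩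
    · exact ⟨-1, B T h / 3 + 1, by norm_num, by omega⟩
  obtain ⟨ε, α, hε, hα⟩ := e
  refine ⟨ε • T + α • h, K.add_mem (K.smul_mem _ hT) (K.smul_mem _ lab.mem), ?_, ?_⟩
  · have e2 : 3 * B (ε • T + α • h) (ε • T + α • h) = 9 := by
      simp only [map_add, map_smul, LinearMap.add_apply, LinearMap.smul_apply, smul_eq_mul, h3,
        sB h T]
      linear_combination (ε * B T h + 3 * α + 1) * hα + ε * ε * hd + 8 * hε
    linarith
  · simp only [map_add, map_smul, LinearMap.add_apply, LinearMap.smul_apply, smul_eq_mul, h3]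
    linear_combination hα

/-- classes of the double plane attached to `T` with `T·(h - P) = 2 q` and `T·h = k`, `T·T = t` -/
lemma arith_types {k q t : ℤ} (e : Even (t - k)) : (3 * t - k ^ 2) % 4 = 2 ↔
    (Even (k - q) ∧ Odd (k + (q ^ 2 + (q - k) ^ 2 - t) / 2)) ∨
      (Odd (k - q) ∧ (q ^ 2 + (q - k) ^ 2 - t) % 4 = 0) := by
  obtain ⟨c, hc⟩ := e
  obtain rfl : t = k + 2 * c := by omega
  simp only [Int.even_iff, Int.odd_iff]
  rcases Int.even_or_odd' k with ⟨x, rfl | rfl⟩ <;> rcases Int.even_or_odd' q with ⟨y, rfl | rfl⟩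
  · have e1 : (2 * x) ^ 2 = 4 * (x * x) := by ring
    have e2 : (2 * y) ^ 2 = 4 * (y * y) := by ring
    have e3 : (2 * y - 2 * x) ^ 2 = 4 * ((y - x) * (y - x)) := by ring
    rw [e1, e2, e3]
    generalize x * x = a
    generalize y * y = b
    generalize (y - x) * (y - x) = d
    omega
  · have e1 : (2 * x) ^ 2 = 4 * (x * x) := by ring
    have e2 : (2 * y + 1) ^ 2 = 4 * (y * y + y) + 1 := by ring
    have e3 : (2 * y + 1 - 2 * x) ^ 2 = 4 * ((y - x) * (y - x) + (y - x)) + 1 := by ring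
    rw [e1, e2, e3]
    generalize x * x = a
    generalize y * y = b
    generalize (y - x) * (y - x) = d
    omega
  · have e1 : (2 * x + 1) ^ 2 = 4 * (x * x + x) + 1 := by ring
    have e2 : (2 * y) ^ 2 = 4 * (y * y) := by ring
    have e3 : (2 * y - (2 * x + 1)) ^ 2 = 4 * ((y - x) * (y - x) - (y - x)) + 1 := by ring
    rw [e1, e2, e3]
    generalize x * x = a
    generalize y * y = b
    generalize (y - x) * (y - x) = d
    omega
  · have e1 : (2 * x + 1) ^ 2 = 4 * (x * x + x) + 1 := by ring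
    have e2 : (2 * y + 1) ^ 2 = 4 * (y * y + y) + 1 := by ring
    have e3 : (2 * y + 1 - (2 * x + 1)) ^ 2 = 4 * ((y - x) * (y - x)) := by ring
    rw [e1, e2, e3]
    generalize x * x = a
    generalize y * y = b
    generalize (y - x) * (y - x) = d
    omega

/-- The class `T` meets the quadrics of the projection from the plane (class `Q = h - P`) in even
degree `2 q`; `k = T·h`, and `D² = q² + (q - k)² - T²`, `D·H = k - q` are the intersection numbers
of the divisor class `D` attached to `T` on the double plane. -/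
def SurfaceTypes (B : BilinForm ℤ A) (h P : A) : Prop :=
  (∃ T, Odd (B T (h - P))) ∨
  (∃ T q, B T (h - P) = 2 * q ∧ Even (B T h - q) ∧
    Odd (B T h + (q ^ 2 + (q - B T h) ^ 2 - B T T) / 2)) ∨
  (∃ T q, B T (h - P) = 2 * q ∧ Odd (B T h - q) ∧
    (q ^ 2 + (q - B T h) ^ 2 - B T T) % 4 = 0)

lemma disc_of_good (hg : GoodClass B h) : ∃ T, disc B h T % 4 = 2 := by
  obtain ⟨y, T, hc, hT⟩ := hg
  refine ⟨T, ?_⟩
  have dT : disc B h T = 2 * (3 * y * y + 3 * y * B T h + B T h * B T h) := by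
    unfold disc
    rw [hT]
    ring
  obtain ⟨t, ht⟩ := norm_odd hc
  rw [dT, ht]
  omega

lemma types_iff (sB : ∀ x y, B x y = B y x) (ch : ∀ x, Even (B x x - B x h)) (h3 : B h h = 3)
    {P : A} (hP : B P P = 3) (hPh : B P h = 1) :
    SurfaceTypes B h P ↔ ∃ T, disc B h T % 4 = 2 := by
  constructor
  · rintro (⟨T, hT⟩ | ⟨T, q, hq, h1, h2⟩ | ⟨T, q, hq, h1, h2⟩)
    · rw [map_sub] at hT
      exact disc_of_good (good_of_odd sB ch h3 hP hPh hT)
    · exact ⟨T, (arith_types (ch T)).2 (Or.inl ⟨h1, h2⟩)⟩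
    · exact ⟨T, (arith_types (ch T)).2 (Or.inr ⟨h1, h2⟩)⟩
  · rintro ⟨T, hT⟩
    rcases Int.even_or_odd' (B T (h - P)) with ⟨q, hq | hq⟩
    · rcases (arith_types (q := q) (ch T)).1 hT with ⟨h1, h2⟩ | ⟨h1, h2⟩
      · exact Or.inr (Or.inl ⟨T, q, hq, h1, h2⟩)
      · exact Or.inr (Or.inr ⟨T, q, hq, h1, h2⟩)
    · exact Or.inl ⟨T, ⟨q, hq⟩⟩

/-- **Lattices of cubic fourfolds containing a plane.** -/
theorem lattice_tfae [Module.Free ℤ A] [Module.Finite ℤ A] (sB : ∀ x y, B x y = B y x)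
    (pos : ∀ x : A, x ≠ 0 → 0 < B x x) (ch : ∀ x, Even (B x x - B x h)) (h3 : B h h = 3)
    {P : A} (hP : B P P = 3) (hPh : B P h = 1)
    (hsm : ∀ K d, IsLabelling B h K d → d ≠ 2 ∧ d ≠ 6) :
    List.TFAE [∃ K d, IsLabelling B h K d ∧ Admissible d,
      ∃ K d, IsLabelling B h K d ∧ d % 4 = 2,
      ∃ T, disc B h T % 4 = 2,
      HypPlane (kuForm B h) (fun _ => True),
      SurfaceTypes B h P] := by
  tfae_have 1 → 2 := by
    rintro ⟨K, d, lab, -, had, h4, -⟩
    exact ⟨K, d, lab, by omega⟩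
  tfae_have 2 → 3 := by
    rintro ⟨K, d, lab, hd⟩
    obtain ⟨T, -, hT⟩ := disc_of_labelling sB h3 lab
    exact ⟨T, by rw [hT]; exact hd⟩
  tfae_have 3 → 1 := by
    rintro ⟨T, hT⟩
    obtain ⟨K, d, h1, h2, -⟩ :=
      labelling_of_good sB pos h3 hsm (good_of_disc sB ch h3 hP hPh hT)
    exact ⟨K, d, h1, h2⟩
  tfae_have 3 → 4 := by
    rintro ⟨T, hT⟩
    obtain ⟨y, T', hc, hT'⟩ := good_of_disc sB ch h3 hP hPh hT
    exact hyp_of_iso sB h3 hc hT'
  tfae_have 4 → 3 := disc_of_hyp sB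
  tfae_have 5 ↔ 3 := types_iff sB ch h3 hP hPh
  tfae_finish

end Vale.Agent.P287.H802
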