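import Mathlib

/-!
Lattice theory of cubic fourfolds containing a plane: hyperbolic planes in the algebraic Mukai
lattice, and labellings of admissible discriminant.
-/

namespace Vale.Agent.P287.H802

open LinearMap (BilinForm)

section Twisted

variable {L : Type*} [AddCommGroup L]

/-- the Mukai form on `ℤ × L × ℤ`: `(r,c,s)·(r',c',s') = c·c' - r s' - r' s` -/
def mukai (B : BilinForm ℤ L) (u v : ℤ × L × ℤ) : ℤ :=
  B u.2.1 v.2.1 - u.1 * v.2.2 - v.1 * u.2.2

/-- `(r,c,s)` lies in the twisted algebraic lattice if `2c - r b ∈ NS` -/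
def Twisted (NS : Submodule ℤ L) (b : L) (v : ℤ × L × ℤ) : Prop :=
  (2 : ℤ) • v.2.1 - v.1 • b ∈ NS

/-- a subset of a module with a form contains a hyperbolic plane -/
def HypPlane {N : Type*} (form : N → N → ℤ) (S : N → Prop) : Prop :=
  ∃ u v : N, S u ∧ S v ∧ form u u = 0 ∧ form v v = 0 ∧ form u v = 1

variable {B : BilinForm ℤ L} {NS : Submodule ℤ L} {h b : L}

lemma twisted_add {u v : ℤ × L × ℤ} (hu : Twisted NS b u) (hv : Twisted NS b v) :
    Twisted NS b (u + v) := by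
  unfold Twisted at *
  have := NS.add_mem hu hv
  have e : (2 : ℤ) • (u + v).2.1 - (u + v).1 • b =
      ((2 : ℤ) • u.2.1 - u.1 • b) + ((2 : ℤ) • v.2.1 - v.1 • b) := by
    simp only [Prod.fst_add, Prod.snd_add, smul_add, add_smul]
    abel
  rw [e]; exact this

lemma twisted_smul {v : ℤ × L × ℤ} (n : ℤ) (hv : Twisted NS b v) : Twisted NS b (n • v) := by
  unfold Twisted at *
  have := NS.smul_mem n hv
  have e : (2 : ℤ) • (n • v).2.1 - (n • v).1 • b = n • ((2 : ℤ) • v.2.1 - v.1 • b) := by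
    simp only [Prod.smul_fst, Prod.smul_snd, smul_sub, smul_smul, smul_eq_mul]
    rw [mul_comm n 2]
  rw [e]; exact this

/-- isotropic `v` and `w` with `v·w = 1` in an even lattice give a hyperbolic plane -/
lemma hyp_of_pair (sB : ∀ x y, B x y = B y x) (ev : ∀ x, Even (B x x)) {v w : ℤ × L × ℤ}
    (hv : Twisted NS b v) (hw : Twisted NS b w) (vv : mukai B v v = 0) (vw : mukai B v w = 1) :
    HypPlane (mukai B) (Twisted NS b) := by
  obtain ⟨k, hk⟩ : ∃ k, mukai B w w = 2 * k := by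
    obtain ⟨e, he⟩ := ev w.2.1
    exact ⟨e - w.1 * w.2.2, by unfold mukai; rw [he]; ring⟩
  refine ⟨v, w + (-k) • v, hv, twisted_add hw (twisted_smul _ hv), vv, ?_, ?_⟩
  · unfold mukai at *
    simp only [Prod.fst_add, Prod.snd_add, Prod.smul_fst, Prod.smul_snd, smul_eq_mul, map_add,
      map_smul, LinearMap.add_apply, LinearMap.smul_apply]
    have := sB w.2.1 v.2.1
    linear_combination hk + k ^ 2 * vv - 2 * k * vw - k * this
  · unfold mukai at *
    simp only [Prod.fst_add, Prod.snd_add, Prod.smul_fst, Prod.smul_snd, smul_eq_mul, map_add,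
      map_smul]
    linear_combination vw - k * vv

lemma hyp_of_odd (sB : ∀ x y, B x y = B y x) (ev : ∀ x, Even (B x x)) {v w : ℤ × L × ℤ}
    (hv : Twisted NS b v) (hw : Twisted NS b w) (vv : mukai B v v = 0) (v1 : v.1 = 2)
    (vw : Odd (mukai B v w)) : HypPlane (mukai B) (Twisted NS b) := by
  obtain ⟨k, hk⟩ := vw
  have h0 : Twisted NS b ((0 : ℤ), (0 : L), (1 : ℤ)) := by
    unfold Twisted
    simp
  refine hyp_of_pair sB ev hv (twisted_add hw (twisted_smul k h0)) vv ?_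
  unfold mukai at *
  simp only [Prod.fst_add, Prod.snd_add, Prod.smul_fst, Prod.smul_snd, smul_eq_mul, map_add,
    map_smul, smul_zero, map_zero] at *
  rw [v1] at hk ⊢
  linear_combination hk

lemma parA {m x d y β s : ℤ} (h : m * m * (2 * β + 1) + m * x + d - 2 * m * s = 0)
    (p1 : Even y → Even (x + d)) (p2 : Odd y → Odd d) :
    Even x ∧ (Even m ↔ Even y) ∧ (Even d ↔ Even y) := by
  have h' : Even (m * m * (2 * β + 1) + m * x + d - 2 * m * s) := by rw [h]; exact Even.zero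
  simp only [← Int.not_even_iff_odd, Int.even_add, Int.even_sub, Int.even_mul, even_two, true_or,
    iff_true, Int.not_even_one, iff_false, not_true] at h' p1 p2
  tauto

/-- arithmetic of the forward direction -/
lemma fwd_aux {m m' x x' d d' y y' e β s s' : ℤ}
    (uu : m * (m * (4 * β + 2) + x) + (m * x + 2 * d) - 2 * m * s - 2 * m * s = 0)
    (vv : m' * (m' * (4 * β + 2) + x') + (m' * x' + 2 * d') - 2 * m' * s' - 2 * m' * s' = 0)
    (uv : m * (m' * (4 * β + 2) + x') + (m' * x + e) - 2 * m * s' - 2 * m' * s = 1)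
    (p1 : Even y → Even (x + d)) (p2 : Odd y → Odd d)
    (p1' : Even y' → Even (x' + d')) (p2' : Odd y' → Odd d')
    (p1'' : Even (y + y') → Even (x + x' + (d + d' + e)))
    (p2'' : Odd (y + y') → Odd (d + d' + e)) : False := by
  have e1 : m * m * (2 * β + 1) + m * x + d - 2 * m * s = 0 := by
    have : 2 * (m * m * (2 * β + 1) + m * x + d - 2 * m * s) = 2 * 0 := by
      linear_combination uu
    linarith
  have e2 : m' * m' * (2 * β + 1) + m' * x' + d' - 2 * m' * s' = 0 := by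
    have : 2 * (m' * m' * (2 * β + 1) + m' * x' + d' - 2 * m' * s') = 2 * 0 := by
      linear_combination vv
    linarith
  obtain ⟨a1, a2, a3⟩ := parA e1 p1 p2
  obtain ⟨b1, b2, b3⟩ := parA e2 p1' p2'
  have f3 : Odd e := by
    obtain ⟨z, hz⟩ := a1
    obtain ⟨z', hz'⟩ := b1
    refine ⟨-(m * (m' * (2 * β + 1) + z') + m' * z - m * s' - m' * s), ?_⟩
    rw [hz, hz'] at uv
    linear_combination uv
  rcases Int.even_or_odd (y + y') with h1 | h1
  · have h3 := p1'' h1
    have h4 : Even (x + x') := a1.add b1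
    have h5 : Even (d + d') := by
      rw [Int.even_add] at h1 ⊢
      rw [a3, b3]
      exact h1
    have h6 : Odd (x + x' + (d + d' + e)) := h4.add_odd (h5.add_odd f3)
    exact (Int.not_even_iff_odd.2 h6) h3
  · have h3 := p2'' h1
    have h5 : Odd (d + d') := by
      rw [← Int.not_even_iff_odd] at h1 ⊢
      rw [Int.even_add] at h1 ⊢
      rw [a3, b3]
      exact h1
    exact (Int.not_even_iff_odd.2 h3) (h5.add_odd f3)

lemma twisted_nf (sat : ∀ (n : ℤ) (x : L), n ≠ 0 → n • x ∈ NS → x ∈ NS)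
    (h0 : ∀ D ∈ NS, ∀ c : L, b ≠ D + (2 : ℤ) • c) (w : ℤ × L × ℤ) (hw : Twisted NS b w) :
    ∃ m : ℤ, ∃ D ∈ NS, w.1 = 2 * m ∧ w.2.1 = m • b + D := by
  unfold Twisted at hw
  rcases Int.even_or_odd' w.1 with ⟨m, hm | hm⟩
  · refine ⟨m, w.2.1 - m • b, ?_, hm, by abel⟩
    refine sat 2 _ (by norm_num) ?_
    have e : (2 : ℤ) • (w.2.1 - m • b) = (2 : ℤ) • w.2.1 - w.1 • b := by
      rw [hm, smul_sub, smul_smul]
    rw [e]; exact hw
  · exfalso
    refine h0 _ (NS.neg_mem hw) (w.2.1 - m • b) ?_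
    rw [hm, smul_sub, smul_smul, add_smul, one_smul]
    abel

lemma twisted_fwd (sB : ∀ x y, B x y = B y x) (ev : ∀ x, Even (B x x))
    (sat : ∀ (n : ℤ) (x : L), n ≠ 0 → n • x ∈ NS → x ∈ NS) (bb : B b b % 4 = 2)
    (hyp : HypPlane (mukai B) (Twisted NS b)) : (∃ D ∈ NS, ∃ c : L, b = D + (2 : ℤ) • c) ∨
      (∃ D ∈ NS, Even (B D h) ∧ Odd (B b D + B D D / 2)) ∨
      (∃ D ∈ NS, Odd (B D h) ∧ B D D % 4 = 0) := by
  obtain ⟨β, hβ⟩ : ∃ β, B b b = 4 * β + 2 := ⟨B b b / 4, by omega⟩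
  obtain ⟨u, v, hu, hv, uu, vv, uv⟩ := hyp
  by_contra hcon
  push Not at hcon
  obtain ⟨h0, hA, hC⟩ := hcon
  -- parity
  have par : ∀ D ∈ NS, ∃ d, B D D = 2 * d ∧ (Even (B D h) → Even (B b D + d)) ∧
      (Odd (B D h) → Odd d) := by
    intro D hD
    obtain ⟨d, hd⟩ := ev D
    refine ⟨d, by omega, fun h1 => ?_, fun h1 => ?_⟩
    · have := hA D hD h1
      rw [hd, show (d + d) / 2 = d by omega, Int.not_odd_iff_even] at this
      exact this
    · have := hC D hD h1
      rw [← Int.not_even_iff_odd]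
      rintro ⟨e, he⟩
      apply this
      omega
  obtain ⟨m, D, hD, u1, u2⟩ := twisted_nf sat h0 u hu
  obtain ⟨m', D', hD', v1, v2⟩ := twisted_nf sat h0 v hv
  obtain ⟨d, hd, p1, p2⟩ := par D hD
  obtain ⟨d', hd', p1', p2'⟩ := par D' hD'
  obtain ⟨d'', hd'', p1'', p2''⟩ := par (D + D') (NS.add_mem hD hD')
  unfold mukai at uu vv uv
  rw [u1, u2] at uu uv
  rw [v1, v2] at vv uv
  simp only [map_add, map_smul, LinearMap.add_apply, LinearMap.smul_apply, smul_eq_mul]
    at uu vv uv hd'' p1'' p2''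
  rw [hβ, sB D b, hd] at uu
  rw [hβ, sB D' b, hd'] at vv
  rw [hβ, sB D b] at uv
  rw [hd, hd', sB D' D] at hd''
  have e3 : d'' = d + d' + B D D' := by linarith
  rw [e3] at p1'' p2''
  exact fwd_aux uu vv (by linear_combination uv) p1 p2 p1' p2' p1'' p2''

lemma twisted_bwd_aux (sB : ∀ x y, B x y = B y x) (ev : ∀ x, Even (B x x)) (hh : h ∈ NS)
    {D : L} (hD : D ∈ NS) (h4 : (B (b + D) (b + D)) % 4 = 0)
    (hodd : Odd (B (b + D) h) ∨ Odd (B (b + D) b)) : HypPlane (mukai B) (Twisted NS b) := by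
  have hv : Twisted NS b ((2 : ℤ), b + D, B (b + D) (b + D) / 4) := by
    unfold Twisted
    have e : (2 : ℤ) • (b + D) - (2 : ℤ) • b = (2 : ℤ) • D := by rw [smul_add]; abel
    simp only
    rw [e]
    exact NS.smul_mem _ hD
  have vv : mukai B ((2 : ℤ), b + D, B (b + D) (b + D) / 4)
      ((2 : ℤ), b + D, B (b + D) (b + D) / 4) = 0 := by
    unfold mukai
    simp only
    omega
  rcases hodd with h5 | h5
  · have hw : Twisted NS b ((0 : ℤ), h, (0 : ℤ)) := by
      unfold Twisted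
      simp only [zero_smul, sub_zero]
      exact NS.smul_mem _ hh
    refine hyp_of_odd sB ev hv hw vv rfl ?_
    unfold mukai
    simpa using h5
  · have hw : Twisted NS b ((2 : ℤ), b, (0 : ℤ)) := by
      unfold Twisted
      simp only [sub_self]
      exact NS.zero_mem
    refine hyp_of_odd sB ev hv hw vv rfl ?_
    unfold mukai
    simp only [mul_zero, sub_zero]
    exact h5.sub_even ⟨B (b + D) (b + D) / 4, by ring⟩

lemma twisted_bwd (sB : ∀ x y, B x y = B y x) (ev : ∀ x, Even (B x x))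
    (hh : h ∈ NS) (h2 : B h h = 2) (hb : Odd (B b h)) (bb : B b b % 4 = 2)
    (hyp : (∃ D ∈ NS, ∃ c : L, b = D + (2 : ℤ) • c) ∨
      (∃ D ∈ NS, Even (B D h) ∧ Odd (B b D + B D D / 2)) ∨
      (∃ D ∈ NS, Odd (B D h) ∧ B D D % 4 = 0)) : HypPlane (mukai B) (Twisted NS b) := by
  obtain ⟨β, hβ⟩ : ∃ β, B b b = 4 * β + 2 := ⟨B b b / 4, by omega⟩
  obtain ⟨t, ht⟩ := hb
  rcases hyp with ⟨D, hD, c, hc⟩ | ⟨D, hD, h1, h3⟩ | ⟨D, hD, h1, h3⟩
  · obtain ⟨k, hk⟩ := ev c
    have hv : Twisted NS b ((1 : ℤ), c, k) := by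
      unfold Twisted
      simp only [one_smul]
      rw [hc]
      have e : (2 : ℤ) • c - (D + (2 : ℤ) • c) = -D := by abel
      rw [e]
      exact NS.neg_mem hD
    have hw : Twisted NS b ((0 : ℤ), (0 : L), (-1 : ℤ)) := by
      unfold Twisted
      simp
    refine hyp_of_pair sB ev hv hw ?_ ?_
    · unfold mukai
      simp only
      linarith
    · unfold mukai
      simp
  · obtain ⟨d, hd⟩ := ev D
    rw [hd, show (d + d) / 2 = d by omega] at h3
    obtain ⟨i, hi⟩ := h1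
    obtain ⟨l, hl⟩ := h3
    rcases Int.even_or_odd (B b D) with ⟨j, hj⟩ | ⟨j, hj⟩
    · refine twisted_bwd_aux sB ev hh hD ?_ (Or.inl ?_)
      · simp only [map_add, LinearMap.add_apply]
        rw [sB D b]
        omega
      · simp only [map_add, LinearMap.add_apply]
        exact ⟨t + i, by omega⟩
    · refine twisted_bwd_aux sB ev hh (NS.add_mem hD hh) ?_ (Or.inl ?_)
      · simp only [map_add, LinearMap.add_apply]
        rw [sB D b, sB h b, sB h D]
        omega
      · simp only [map_add, LinearMap.add_apply]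
        exact ⟨t + i + 1, by omega⟩
  · obtain ⟨i, hi⟩ := h1
    rcases Int.even_or_odd (B b D) with ⟨j, hj⟩ | ⟨j, hj⟩
    · refine twisted_bwd_aux sB ev hh (NS.add_mem hD hh) ?_ (Or.inr ?_)
      · simp only [map_add, LinearMap.add_apply]
        rw [sB D b, sB h b, sB h D]
        omega
      · simp only [map_add, LinearMap.add_apply]
        rw [sB D b, sB h b]
        exact ⟨2 * β + 1 + j + t, by omega⟩
    · refine twisted_bwd_aux sB ev hh hD ?_ (Or.inr ?_)
      · simp only [map_add, LinearMap.add_apply]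
        rw [sB D b]
        omega
      · simp only [map_add, LinearMap.add_apply]
        rw [sB D b]
        exact ⟨2 * β + 1 + j, by omega⟩

/-- Hyperbolic planes in the twisted algebraic lattice of a double plane. -/
theorem twisted_iff (sB : ∀ x y, B x y = B y x) (ev : ∀ x, Even (B x x))
    (sat : ∀ (n : ℤ) (x : L), n ≠ 0 → n • x ∈ NS → x ∈ NS) (hh : h ∈ NS) (h2 : B h h = 2)
    (hb : Odd (B b h)) (bb : B b b % 4 = 2) :
    HypPlane (mukai B) (Twisted NS b) ↔ (∃ D ∈ NS, ∃ c : L, b = D + (2 : ℤ) • c) ∨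
      (∃ D ∈ NS, Even (B D h) ∧ Odd (B b D + B D D / 2)) ∨
      (∃ D ∈ NS, Odd (B D h) ∧ B D D % 4 = 0) :=
  ⟨twisted_fwd sB ev sat bb, twisted_bwd sB ev hh h2 hb bb⟩

end Twisted

end Vale.Agent.P287.H802
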